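import Vale.Agent.P116.G.Fair
import Vale.Agent.P116.KB.V5

/-!
# The fair law of the oscillation budget

`exists_FSt_D`: the fair law for the budget family of an `OscD`, from the existence of structures
with small excess in deep nodes.
-/

open Set Filter Topology Metric Bornology MeasureTheory

namespace Vale.Agent.P116.KB

open H906 Slow
open G (NS XQ sysK FSt)

variable {K : Set ℂ} {R ρ : ℝ} {𝔘 : Type}

/-- monotonicity of `FSt` in the families -/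
lemma FSt.mono {Par Par' : Type} {B : Par → ℝ → Set (Set (Set ℂ))}
    {B' : Par' → ℝ → Set (Set (Set ℂ))} {Ω : Type} [TopologicalSpace Ω] [MeasurableSpace Ω]
    {P : Measure Ω} {g : Ω → ℂ → ℂ} {𝔊 : Ω → Ultrafilter Str} (h : FSt K B Ω P g 𝔊)
    (hB : ∀ t', ∀ δ > 0, ∃ t, ∃ δ' > 0, ∀ S, NS K (lev K 0) S → S ∈ B t δ' → S ∈ B' t' δ) :
    FSt K B' Ω P g 𝔊 where
  cpt := h.cpt
  metr := h.metr
  borel := h.borel
  prob := h.prob
  cont := h.cont
  nu := h.nu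
  fine := h.fine
  conv := h.conv
  ns := h.ns
  bud ω t' δ hδ := by
    obtain ⟨t, δ', hδ', hsub⟩ := hB t' δ hδ
    filter_upwards [h.ns ω, h.bud ω t δ' hδ'] with S h1 h2
    exact hsub _ h1 h2
  good := h.good

/-- **the fair law of the oscillation budget** -/
theorem OscD.exists_FSt (D : OscD K 𝔘) (h : G.Far K R ρ) (hne : K.Nonempty)
    (hS : (sysK h hne).Cnt)
    (hAD : ∀ t : Finset 𝔘 × ℕ, ∃ k, ∀ q : Tn K, k ≤ q.lv → ∀ δ > 0,
      ∃ S, NS K q.st S ∧ D.EU t δ q.st S) :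
    ∃ (Ω : Type) (_ : TopologicalSpace Ω) (_ : MeasurableSpace Ω) (P : Measure Ω)
      (g : Ω → ℂ → ℂ) (𝔊 : Ω → Ultrafilter Str),
      FSt K (fun (t : Finset 𝔘 × ℕ) δ => {S | D.EU t δ (lev K 0) S}) Ω P g 𝔊 := by
  obtain ⟨Ω, i1, i2, P, g, 𝔊, hF⟩ := G.exists_FSt h hne hS (D.E h) (OscD.E_anti h) (OscD.E_mono h)
    (OscD.E_nonempty h hAD) (OscD.E_join h hne) (fun t c _ hδ => OscD.E_brc h hne t c hδ)
    (OscD.E_fine h)
  refine ⟨Ω, i1, i2, P, g, 𝔊, FSt.mono hF fun t δ hδ => ⟨t, δ, hδ, ?_⟩⟩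
  rintro S - ⟨b, hb, rfl⟩
  exact hb

end Vale.Agent.P116.KB
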