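import Vale.Agent.P116.KB.V6
import Vale.Agent.P116.KF.Spec

/-!
# The two forms of the adaptation lemma [7]
-/

open Set Filter Topology Metric Bornology MeasureTheory

namespace Vale.Agent.P116.KB

open H906

/-- the form with a finite index type from the form with `Fin m` -/
theorem ad_of_ad7 (h : AD7) : KF.AD := by
  intro K hK hf n x hx ι _ u hu hm hz δ hδ
  obtain ⟨m, ⟨e⟩⟩ := Finite.exists_equiv_fin ι
  choose ρ hρ using hu
  obtain ⟨S, h1, h2, h3⟩ := h hK hf hx (fun i => u (e.symm i)) (fun i => ρ (e.symm i))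
    (fun i => hρ _) (fun i => hm _)
    (fun i j hij => hz _ _ fun h' => hij (e.symm.injective h')) hδ
  refine ⟨S, h1, h2, fun i => ?_⟩
  have h4 := h3 (e i)
  simp only [Equiv.symm_apply_apply] at h4
  exact h4

/-- the form with `Fin m` from the form with a finite index type -/
theorem ad7_of_ad (h : KF.AD) : AD7 := by
  intro K hK hf n x hx m u ρ hu hm hz δ hδ
  exact h hK hf hx (ι := Fin m) (u := u) (fun i => ⟨ρ i, hu i⟩) hm (fun i j hij => hz i j hij) hδ

theorem ad_iff_ad7 : KF.AD ↔ AD7 := ⟨ad7_of_ad, ad_of_ad7⟩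

end Vale.Agent.P116.KB
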