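import Vale.Agent.P116.Cl.H967.Ug
import Vale.Agent.P116.Cl.Lev905
import Vale.Agent.P116.Cl.E0Spec
import Vale.Agent.P116.Cl.H766.Lev
import Vale.Agent.P116.KF.FL
import Vale.Agent.P116.KF.H903.Maj
import Vale.Agent.P116.KB.H720.Cells
import Vale.Agent.P116.KB.H273.Piece
import Vale.Agent.P116.KB.Tree720

/-!
# Bridges between the definitions of the blocks

The same notions were typed in several files; here are the translations. Hub: `Cl.UG` (upper
gradient), `KF.UpS`, `KF.SMon`, `KB720.cell`, `KB.H273.FC`.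
-/

open Set Filter Topology Metric Bornology MeasureTheory

namespace Vale.Agent.P116.KB.H885

/-! ### upper gradients -/

/-- a pointwise Lipschitz bound `M` on a segment bounds the increment -/
lemma seg_le {u : ℂ → ℝ} {x y : ℂ} {M : ℝ}
    (h : ∀ a ∈ segment ℝ x y, ∀ ε > 0, ∃ δ > 0, ∀ w ∈ segment ℝ x y, ‖w - a‖ < δ →
      |u w - u a| ≤ (M + ε) * ‖w - a‖) : |u x - u y| ≤ M * ‖x - y‖ := by
  set γ : ℝ → ℂ := fun t => x + t • (y - x) with hγ
  have hγs : ∀ t ∈ Icc (0:ℝ) 1, γ t ∈ segment ℝ x y := by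
    intro t ht
    rw [segment_eq_image']
    exact ⟨t, ht, rfl⟩
  have hγd : ∀ s t : ℝ, γ s - γ t = ((s - t : ℝ) : ℂ) * (y - x) := by
    intro s t
    simp only [hγ, Complex.real_smul]
    push_cast
    ring
  have hγn : ∀ s t : ℝ, ‖γ s - γ t‖ = |s - t| * ‖y - x‖ := by
    intro s t
    rw [hγd, norm_mul, Complex.norm_real, Real.norm_eq_abs]
  have hcont : ContinuousOn (fun t => u (γ t)) (Icc 0 1) := by
    intro t ht
    rw [ContinuousWithinAt, Metric.tendsto_nhdsWithin_nhds]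
    intro ε hε
    obtain ⟨δ, hδ, hb⟩ := h (γ t) (hγs t ht) 1 one_pos
    have hL : 0 < |M + 1| * ‖y - x‖ + 1 := by positivity
    refine ⟨min (ε / (|M + 1| * ‖y - x‖ + 1)) (δ / (‖y - x‖ + 1)), by positivity,
      fun s hs hst => ?_⟩
    rw [Real.dist_eq] at hst ⊢
    have h1 : |s - t| < δ / (‖y - x‖ + 1) := hst.trans_le (min_le_right _ _)
    have h2 : |s - t| < ε / (|M + 1| * ‖y - x‖ + 1) := hst.trans_le (min_le_left _ _)
    rw [lt_div_iff₀ (by positivity)] at h1 h2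
    have h3 : ‖γ s - γ t‖ < δ := by
      rw [hγn]
      nlinarith [abs_nonneg (s - t)]
    refine (hb (γ s) (hγs s hs) h3).trans_lt ?_
    rw [hγn]
    have h4 : (M + 1) * (|s - t| * ‖y - x‖) ≤ |M + 1| * (|s - t| * ‖y - x‖) :=
      mul_le_mul_of_nonneg_right (le_abs_self _) (by positivity)
    nlinarith [abs_nonneg (s - t)]
  have key : ∀ ε > 0, |u x - u y| ≤ (M + ε) * ‖y - x‖ := by
    intro ε hε
    set T : Set ℝ := {t | |u (γ t) - u x| ≤ (M + ε) * ‖y - x‖ * t} with hT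
    have hcl : IsClosed (T ∩ Icc 0 1) := by
      have h1 : T ∩ Icc 0 1 = Icc (0:ℝ) 1 ∩ (fun t => (M + ε) * ‖y - x‖ * t - |u (γ t) - u x|) ⁻¹'
          Ici 0 := by
        ext t
        simp only [hT, mem_inter_iff, mem_ofPred_eq, mem_preimage, mem_Ici, sub_nonneg]
        tauto
      rw [h1]
      refine ContinuousOn.preimage_isClosed_of_isClosed ?_ isClosed_Icc isClosed_Ici
      exact ContinuousOn.sub (by fun_prop) ((hcont.sub continuousOn_const).abs)
    have h0 : (0:ℝ) ∈ T := by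
      simp [hT, hγ]
    have hsub := hcl.Icc_subset_of_forall_exists_gt h0 (fun t ht s hs => by
      obtain ⟨htT, ht0, ht1⟩ := ht
      obtain ⟨δ, hδ, hb⟩ := h (γ t) (hγs t ⟨ht0, ht1.le⟩) ε hε
      have hts : t < s := hs
      set s' : ℝ := min (min s 1) (t + δ / (2 * (‖y - x‖ + 1))) with hs'
      have hq : 0 < δ / (2 * (‖y - x‖ + 1)) := by positivity
      have h1 : t < s' := by
        rw [hs']
        exact lt_min (lt_min hts ht1) (by linarith)
      have h2 : s' ≤ s := (min_le_left _ _).trans (min_le_left _ _)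
      have h3 : s' ≤ 1 := (min_le_left _ _).trans (min_le_right _ _)
      have h4 : s' ≤ t + δ / (2 * (‖y - x‖ + 1)) := min_le_right _ _
      refine ⟨s', ?_, h1, h2⟩
      have h5 : s' - t ≤ δ / (2 * (‖y - x‖ + 1)) := by linarith
      rw [le_div_iff₀ (by positivity)] at h5
      have h6 : ‖γ s' - γ t‖ < δ := by
        rw [hγn, abs_of_pos (by linarith : (0:ℝ) < s' - t)]
        nlinarith [norm_nonneg (y - x)]
      have h7 := hb (γ s') (hγs s' ⟨by linarith, h3⟩) h6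
      rw [hγn, abs_of_pos (by linarith : (0:ℝ) < s' - t)] at h7
      have h8 : |u (γ t) - u x| ≤ (M + ε) * ‖y - x‖ * t := htT
      show |u (γ s') - u x| ≤ (M + ε) * ‖y - x‖ * s'
      have h9 : |u (γ s') - u x| ≤ |u (γ s') - u (γ t)| + |u (γ t) - u x| := abs_sub_le _ _ _
      nlinarith)
    have h1 : (1:ℝ) ∈ T := hsub ⟨zero_le_one, le_rfl⟩
    have h2 : γ 1 = y := by simp [hγ]
    have h3 : |u (γ 1) - u x| ≤ (M + ε) * ‖y - x‖ * 1 := h1
    rw [h2, mul_one, abs_sub_comm] at h3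
    exact h3
  rw [norm_sub_rev x y]
  by_contra hcon
  push Not at hcon
  have h1 := key ((|u x - u y| - M * ‖y - x‖) / (2 * (‖y - x‖ + 1))) (div_pos (by linarith)
    (by positivity))
  have h2 : (|u x - u y| - M * ‖y - x‖) / (2 * (‖y - x‖ + 1)) * ‖y - x‖ ≤
      (|u x - u y| - M * ‖y - x‖) / 2 := by
    rw [div_mul_eq_mul_div, div_le_div_iff₀ (by positivity) (by positivity)]
    nlinarith [norm_nonneg (y - x)]
  nlinarith

variable {G : Set ℂ} {u ρ κ : ℂ → ℝ}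

lemma ug_iff_967 : Cl.UG G u ρ ↔ Cl.H967.UG G u ρ :=
  ⟨fun h => ⟨h.cont, h.nn, h.le⟩, fun h => ⟨h.cont, h.nonneg, h.le⟩⟩

lemma ugr_iff_720 : KF.UGr G u ρ ↔ KB720.Maj G u ρ := Iff.rfl

lemma ug_iff_ugr : Cl.UG G u ρ ↔ ContinuousOn ρ G ∧ (∀ z ∈ G, 0 ≤ ρ z) ∧ KF.UGr G u ρ :=
  ⟨fun h => ⟨h.cont, h.nn, h.le⟩, fun h => ⟨h.1, h.2.1, h.2.2⟩⟩

/-- `Cl.Maj` (E0Spec) gives `Cl.UG` -/
lemma ug_of_maj (h : Cl.Maj G u ρ) : Cl.UG G u ρ where
  cont := h.cont
  nn := h.nn
  le x y hxy M hM := by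
    refine seg_le fun a ha ε hε => ?_
    obtain ⟨δ, hδ, hb⟩ := h.lip a (hxy ha) ε hε
    refine ⟨δ, hδ, fun w hw hwa => ?_⟩
    refine (hb w (by rwa [mem_ball, dist_eq_norm]) a (mem_ball_self hδ)).trans ?_
    gcongr
    exact hM a ha

/-- on open sets the two notions agree -/
lemma maj_iff_ug (hG : IsOpen G) : Cl.Maj G u ρ ↔ Cl.UG G u ρ := by
  refine ⟨ug_of_maj, fun h => ⟨h.cont, h.nn, fun a ha ε hε => ?_⟩⟩
  obtain ⟨δ, hδ, hb⟩ := Metric.isOpen_iff.1 hG a ha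
  have hc : ∀ᶠ w in 𝓝 a, ρ w < ρ a + ε :=
    (h.cont.continuousAt (hG.mem_nhds ha)).eventually (gt_mem_nhds (by linarith))
  obtain ⟨δ', hδ', hb'⟩ := Metric.eventually_nhds_iff_ball.1 hc
  refine ⟨min δ δ', lt_min hδ hδ', fun x hx y hy => ?_⟩
  have hseg : segment ℝ x y ⊆ ball a (min δ δ') := (convex_ball a _).segment_subset hx hy
  exact h.le x y (hseg.trans ((ball_subset_ball (min_le_left _ _)).trans hb)) _ fun z hz =>
    (hb' z (ball_subset_ball (min_le_right _ _) (hseg hz))).le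

/-- 903's pointwise notion gives an upper gradient on every set -/
lemma ugr_of_903 (h : KF.H903.Maj u κ) : KF.UGr G u κ := by
  intro x y _ M hM
  refine seg_le fun a ha ε hε => ?_
  obtain ⟨δ, hδ, hb⟩ := Metric.eventually_nhds_iff_ball.1 (h a ε hε)
  refine ⟨δ, hδ, fun w _ hwa => ?_⟩
  refine (hb w (by rwa [mem_ball, dist_eq_norm])).trans ?_
  gcongr
  exact hM a ha

/-- an upper gradient is a pointwise Lipschitz bound where it is continuous -/
lemma UG903_of_ug (hG : IsOpen G) (h : Cl.UG G u ρ) {a : ℂ} (ha : a ∈ G) {ε : ℝ} (hε : 0 < ε) :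
    ∀ᶠ w in 𝓝 a, |u w - u a| ≤ (ρ a + ε) * ‖w - a‖ := by
  obtain ⟨δ, hδ, hb⟩ := ((maj_iff_ug hG).2 h).lip a ha ε hε
  filter_upwards [ball_mem_nhds a hδ] with w hw
  exact hb w hw a (mem_ball_self hδ)

/-- a differentiable function has the norm of its derivative as an upper gradient -/
lemma ug_of_fderiv (hG : IsOpen G) (hu : DifferentiableOn ℝ u G)
    (hc : ContinuousOn (fun z => ‖fderiv ℝ u z‖) G) : Cl.UG G u (fun z => ‖fderiv ℝ u z‖) where
  cont := hc
  nn z _ := norm_nonneg _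
  le x y hxy M hM := by
    have h2 := Convex.norm_image_sub_le_of_norm_hasFDerivWithin_le (𝕜 := ℝ) (f := u)
      (f' := fun z => fderiv ℝ u z) (s := segment ℝ x y) (C := M)
      (fun z hz => ((hu.differentiableAt (hG.mem_nhds (hxy hz))).hasFDerivAt).hasFDerivWithinAt)
      (fun z hz => hM z hz) (convex_segment x y) (right_mem_segment ℝ x y)
      (left_mem_segment ℝ x y)
    rwa [Real.norm_eq_abs] at h2

/-! ### level sets, strong monotonicity -/

variable {K w : Set ℂ}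

lemma ups_eq (t : ℝ) : KF.UpS K u t = Cl.H766.UpS K u t := by
  ext z
  simp only [KF.UpS, Cl.H766.UpS, mem_union, mem_ofPred_eq, gt_iff_lt]

lemma smon_iff : KF.SMon K w u ↔ Cl.H766.SMon K w u := by
  simp only [KF.SMon, KF.SU, Cl.H766.SMon, ups_eq]
  exact ⟨fun h t => ⟨h.1 t, h.2 t⟩, fun h => ⟨fun t => (h t).1, fun t => (h t).2⟩⟩

/-! ### cells -/

lemma cell_eq (d : ℝ) (m : ℤ × ℤ) : Cl.cell d m = KB720.cell d m := by
  ext z
  simp only [Cl.cell, KB720.cell, mem_ofPred_eq, mul_comm d]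

lemma cellh_eq (d : ℝ) (m : ℤ × ℤ) : Cl.cellh d m = KB720.cello d m := by
  ext z
  simp only [Cl.cellh, KB720.cello, Complex.mem_reProdIm, mem_Ico, mem_ofPred_eq, mul_comm d,
    and_assoc]

/-! ### full continua -/

lemma fc_iff {P : Set ℂ} : KB.H273.FC P ↔ KB720.FC P :=
  ⟨fun h => ⟨h.cpt, h.conn, h.full⟩, fun h => ⟨h.cpt, h.conn, h.full⟩⟩

end Vale.Agent.P116.KB.H885
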