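import Vale.Agent.P116.KB.H885.FairD
import Vale.Agent.P116.KB.V6
import Vale.Agent.P116.G.AR3
import Vale.Agent.P116.KF.Spec

/-!
# The fair law of a compatible set of pairs

`exists_FSt_pairs`: the fair law for which all the pairs `(w, u)` of a compatible set `U` have zero
excess; `FSt.cov`, `FSt.adp`: what it says about `U`.
-/

open Set Filter Topology Metric Bornology MeasureTheory

namespace Vale.Agent.P116.KB

open H906 Slow
open G (NS XQ sysK FSt)

variable {K : Set ℂ} {R ρ : ℝ}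

/-- **the fair law of a compatible set of pairs** -/
theorem exists_FSt_pairs (h7 : AD7) (h : G.Far K R ρ) (hne : K.Nonempty) (U : Set Pair)
    (hU : ∀ p ∈ U, APair K p) (hc : ∀ p ∈ U, ∀ p' ∈ U, p ≠ p' → Cmp K p p') :
    ∃ (Ω : Type) (_ : TopologicalSpace Ω) (_ : MeasurableSpace Ω) (P : Measure Ω)
      (g : Ω → ℂ → ℂ) (𝔊 : Ω → Ultrafilter Str),
      FSt K (fun (t : Finset U × ℕ) δ => {S | (oD U hU).EU t δ (lev K 0) S}) Ω P g 𝔊 :=
  OscD.exists_FSt (oD U hU) h hne (G.sysCnt_all h hne) (exists_deep h7 h.cpt h.full U hU hc)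

section

variable {U : Set Pair} {hU : ∀ p ∈ U, APair K p} {Ω : Type} [TopologicalSpace Ω]
  [MeasurableSpace Ω] {P : Measure Ω} {g : Ω → ℂ → ℂ} {𝔊 : Ω → Ultrafilter Str}

/-- the structures cover `K` -/
theorem FSt.cov (hF : FSt K (fun (t : Finset U × ℕ) δ => {S | (oD U hU).EU t δ (lev K 0) S})
    Ω P g 𝔊) (ω : Ω) : ∀ᶠ S : Str in (𝔊 ω : Filter Str), K ⊆ ⋃₀ S.1 := by
  filter_upwards [hF.bud ω (∅, 0) 1 one_pos] with S hS x hx
  obtain ⟨A, hA, hxA⟩ := (EU_root hS).2.1 x hx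
  exact ⟨A, hA, hxA⟩

/-- the pairs of `U` are adapted -/
theorem FSt.adp (hF : FSt K (fun (t : Finset U × ℕ) δ => {S | (oD U hU).EU t δ (lev K 0) S})
    Ω P g 𝔊) (ω : Ω) {w : Set ℂ} {u : ℂ → ℝ} (hu : (w, u) ∈ U) :
    KF.Adp K w (𝔊 ω : Filter Str) u := by
  classical
  intro δ hδ
  filter_upwards [hF.bud ω ({⟨(w, u), hu⟩}, 0) δ hδ] with S hS
  exact (EU_root hS).2.2 ⟨(w, u), hu⟩ (Finset.mem_singleton_self _)

end

end Vale.Agent.P116.KB
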