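import Vale.Agent.P116.Cl.H555.Mix
import Vale.Agent.P116.KB.H885.FairU
import Vale.Agent.P116.KF.Spec

/-!
# Averages over a fair law are compatible with the adapted functions

`zs_avg`: if `u` is adapted to the structures of a fair law then every average `f` of Lipschitz
functions of the random map is compatible with `u`.
-/

open Set Filter Topology Metric Bornology MeasureTheory
open scoped NNReal

namespace Vale.Agent.P116.KB

open H906 Slow
open G (NS FSt)

variable {K : Set ℂ}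

/-- **[45] + [MIX]**: averages over a fair law are compatible with the adapted functions -/
theorem zs_avg (h45 : KF.P45) (hK : IsCompact K) (hf : Full K) {Par : Type}
    {B : Par → ℝ → Set (Set (Set ℂ))} {Ω : Type} [TopologicalSpace Ω] [MeasurableSpace Ω]
    {P : Measure Ω} {g : Ω → ℂ → ℂ} {𝔊 : Ω → Ultrafilter Str} (hF : FSt K B Ω P g 𝔊)
    (hcov : ∀ ω, ∀ᶠ S : Str in (𝔊 ω : Filter Str), K ⊆ ⋃₀ S.1)
    {n : ℕ} {x : ℂ} (hx : x ∈ K) {u ρ : ℂ → ℝ} (hu : Hon K (nd K n x) u ρ)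
    (hm : KF.SMon K (nd K n x) u)
    (hadp : ∀ ω, KF.Adp K (nd K n x) (𝔊 ω : Filter Str) u) {f ρ' : ℂ → ℝ}
    (hav : KF.IsAvg K P g f) (hfH : Hon K (nd K n x) f ρ') :
    volume (Zs K (nd K n x) u f) = 0 := by
  obtain ⟨χ, L, p, hχ, hp, hpb, hfe⟩ := hav
  have := hF.cpt
  have := hF.borel
  have := hF.prob
  obtain ⟨N, wt, S, q, h1, h2, h3, -, h5⟩ := Cl.exists_mix_seq (α := Str) P (G := Kᶜ) (Φ := g)
    hF.cont hp hpb hχ (F := kF fk) (𝔊 := fun ω => (𝔊 ω : Filter Str)) (fun ω => inferInstance)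
    hF.conv hK.isClosed.isOpen_compl
    (Q := fun j S => NS K (lev K 0) S.1 ∧ K ⊆ ⋃₀ S.1 ∧ (∀ A ∈ S.1, A ⊆ lev K j) ∧
      ∑ᶠ A ∈ S.1, oP K (nd K n x) u A ≤ Eo K (nd K n x) u + 1 / ((j:ℝ) + 1))
    (fun j ω => by
      filter_upwards [hF.ns ω, hcov ω, hF.fine ω j, hadp ω (1 / ((j:ℝ) + 1)) (by positivity)]
        with S h1 h2 h3 h4
      exact ⟨h1, h2, h3, h4⟩)
  refine h45 hK hf hx hu hm hfH (L := L) (wt := wt) (S := S) (h := fun j i z => χ (z - q j i))
    h1 h2 (fun j i => ?_) (fun j i => (h3 j i).1) (fun j i => (h3 j i).2.1)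
    (fun m => ?_) (fun δ hδ => ?_) ?_
  · refine LipschitzWith.of_dist_le_mul fun y z => ?_
    have := hχ.dist_le_mul (y - q j i) (z - q j i)
    rwa [dist_sub_right] at this
  · filter_upwards [eventually_ge_atTop m] with j hj i A hA
    exact ((h3 j i).2.2.1 A hA).trans (lev_anti hj)
  · obtain ⟨k, hk⟩ := exists_nat_one_div_lt hδ
    filter_upwards [eventually_ge_atTop k] with j hj i
    refine (h3 j i).2.2.2.trans ?_
    have h6 : 1 / ((j:ℝ) + 1) ≤ 1 / ((k:ℝ) + 1) := by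
      have : (k:ℝ) ≤ j := by exact_mod_cast hj
      gcongr
    linarith
  · exact h5.congr_right fun z hz => (hfe z hz).symm

end Vale.Agent.P116.KB
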